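import Vale.Agent.P215.Am.AmenableDefs

/-!
# P215: groups built from linear and amenable groups
-/

namespace Vale.Agent.N215T

open Vale.Agent.P215.Am

/-- The smallest class of groups which contains all groups of invertible matrices over commutative
rings and all amenable groups, and which is closed under subgroups (and isomorphism), extensions
and directed unions. -/
inductive Built : (G : Type) → [Group G] → Prop
  /-- linear groups over a commutative ring -/
  | linear (R : Type) [CommRing R] (n : ℕ) : Built (GL (Fin n) R)
  /-- amenable groups -/
  | amenable {G : Type} [Group G] : IsAmenable G → Built G
  /-- groups isomorphic to a subgroup -/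
  | subgroup {G H : Type} [Group G] [Group H] (f : H →* G) :
      Function.Injective f → Built G → Built H
  /-- extensions -/
  | extension {G : Type} [Group G] (N : Subgroup G) [N.Normal] :
      Built N → Built (G ⧸ N) → Built G
  /-- directed unions -/
  | directedUnion {G : Type} [Group G] {ι : Type} [Nonempty ι] (S : ι → Subgroup G)
      (dir : Directed (· ≤ ·) S) (union : ∀ g : G, ∃ i, g ∈ S i) : (∀ i, Built (S i)) → Built G

end Vale.Agent.N215T
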