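import Vale.Agent.N215T.Ring
import Vale.Agent.N215T.Defs
import Vale.Agent.P215.Am.SGAmen
import Vale.Agent.P215.Am.Amenable

/-!
# P215: amenability of linear groups without free subgroups
-/

namespace Vale.Agent.N215T

open Vale.Agent.P215.Am

variable {G H : Type} [Group G] [Group H]

theorem amen_of_inj (f : H →* G) (hf : Function.Injective f) (h : IsAmenable G) : IsAmenable H :=
  (h.subgroup f.range).of_surjective (MonoidHom.ofInjective hf).symm.toMonoidHom
    (MonoidHom.ofInjective hf).symm.surjective

theorem amen_of_finite [Finite G] : IsAmenable G := by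
  classical
  intro S ε hε
  have := Fintype.ofFinite G
  refine ⟨Finset.univ, Finset.univ_nonempty, fun s _ => ?_⟩
  have h1 : ∀ i : DecidableEq G, @Finset.image G G i (fun a => s * a) Finset.univ = Finset.univ :=
    fun _ => Finset.image_univ_of_surjective (mul_left_surjective s)
  rw [h1, symmDiff_self, Finset.bot_eq_empty, Finset.card_empty, Nat.cast_zero]
  exact mul_pos hε (Nat.cast_pos.2 Finset.univ_nonempty.card_pos)

theorem amen_of_vs (h : ∃ S : Subgroup G, S.FiniteIndex ∧ Group.IsSolvable S) : IsAmenable G := by
  obtain ⟨S, hS, hS'⟩ := h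
  exact IsAmenable.extension S.normalCore
    (amen_of_inj (Subgroup.inclusion S.normalCore_le) (Subgroup.inclusion_injective _)
      (IsAmenable.of_isSolvable hS')) amen_of_finite

theorem amen_of_fg (h : ∀ K : Subgroup G, K.FG → IsAmenable K) : IsAmenable G := by
  classical
  refine IsAmenable.directedUnion (fun s : Finset G => Subgroup.closure (s : Set G))
    (fun s t => ⟨s ∪ t, Subgroup.closure_mono (by simp), Subgroup.closure_mono (by simp)⟩)
    (fun g => ⟨{g}, Subgroup.subset_closure (by simp)⟩) fun s => h _ ⟨s, rfl⟩

theorem NoF.of_inj (h : NoF G) (f : H →* G) (hf : Function.Injective f) : NoF H :=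
  fun ⟨ι, hι⟩ => h ⟨f.comp ι, hf.comp hι⟩

theorem NoF.of_surj (h : NoF G) (f : G →* H) (hf : Function.Surjective f) : NoF H := by
  rintro ⟨ι, hι⟩
  choose l hl using hf
  refine h ⟨FreeGroup.lift fun i => l (ι (FreeGroup.of i)), Function.Injective.of_comp (f := f) ?_⟩
  have h1 : f.comp (FreeGroup.lift fun i => l (ι (FreeGroup.of i))) = ι :=
    FreeGroup.ext_hom _ _ fun i => by simp [hl]
  rwa [← h1] at hι

theorem vs_of_linear {R : Type} [CommRing R] {n : ℕ} (f : G →* GL (Fin n) R)
    (hf : Function.Injective f) (h : NoF G) (K : Subgroup G) (hK : K.FG) :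
    ∃ S : Subgroup K, S.FiniteIndex ∧ Group.IsSolvable S := by
  have := (Group.fg_iff_subgroup_fg K).2 hK
  exact tits_alternative (f.comp K.subtype) (hf.comp K.subtype_injective)
    (h.of_inj K.subtype K.subtype_injective)

theorem Built.amen (h : Built G) :
    ∀ (H : Type) [Group H] (f : H →* G), Function.Injective f → NoF H → IsAmenable H := by
  induction h with
  | linear R n =>
    exact fun H _ f hf h => amen_of_fg fun K hK => amen_of_vs (vs_of_linear f hf h K hK)
  | amenable h => exact fun H _ f hf _ => amen_of_inj f hf h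
  | subgroup g hg _ ih => exact fun H _ f hf h => ih H (g.comp f) (hg.comp hf) h
  | extension N _ _ ih1 ih2 =>
    intro H _ f hf h
    refine IsAmenable.extension (N.comap f) (ih1 _ (f.subgroupComap N) ?_
      (h.of_inj _ (N.comap f).subtype_injective))
      (ih2 _ (QuotientGroup.map (N.comap f) N f le_rfl) ?_
        (h.of_surj _ (QuotientGroup.mk'_surjective _)))
    · exact fun a b hab => Subtype.ext (hf (congrArg Subtype.val hab))
    · rw [injective_iff_map_eq_one]
      intro a ha
      obtain ⟨b, rfl⟩ := QuotientGroup.mk_surjective a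
      exact (QuotientGroup.eq_one_iff b).2 ((QuotientGroup.eq_one_iff (f b)).1 ha)
  | directedUnion S dir union _ ih =>
    intro H _ f hf h
    refine IsAmenable.directedUnion (fun i => (S i).comap f) (fun i j => ?_) (fun g => union (f g))
      fun i => ih i _ (f.subgroupComap (S i))
        (fun a b hab => Subtype.ext (hf (congrArg Subtype.val hab)))
        (h.of_inj _ ((S i).comap f).subtype_injective)
    obtain ⟨k, h1, h2⟩ := dir i j
    exact ⟨k, Subgroup.comap_mono h1, Subgroup.comap_mono h2⟩

end Vale.Agent.N215T
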