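import Mathlib

/-!
# Embeddings of finitely generated fields in local fields

If `μ` is a nonzero element of a finitely generated field `F` and not a root of unity, then there
is an embedding of `F` in a locally compact normed field which sends `μ` to an element of norm
different from one.
-/

namespace Vale.Agent.N215T

open Cardinal IsDedekindDomain

/-- Extension of an embedding to a countable field. -/
theorem exists_ext {R F Ω : Type} [CommRing R] [Field F] [Field Ω] [IsAlgClosed Ω]
    [Countable F] (hΩ : ℵ₀ < #Ω) (f : R →+* F) (g : R →+* Ω) (hf : Function.Injective f)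
    (hg : Function.Injective g) : ∃ σ : F →+* Ω, ∀ r, σ (f r) = g r := by
  let := f.toAlgebra
  let := g.toAlgebra
  have : IsDomain R := hf.isDomain f
  have : FaithfulSMul R F := (faithfulSMul_iff_algebraMap_injective R F).2 hf
  have : FaithfulSMul R Ω := (faithfulSMul_iff_algebraMap_injective R Ω).2 hg
  obtain ⟨s, hs⟩ := exists_isTranscendenceBasis R F
  obtain ⟨t, ht⟩ := exists_isTranscendenceBasis R Ω
  have hR : #R ≤ ℵ₀ := (mk_le_of_injective hf).trans mk_le_aleph0
  have h1 : #Ω = #t :=
    IsAlgClosed.cardinal_eq_cardinal_transcendence_basis_of_aleph0_lt' _ ht hR hΩ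
  have h2 : #s ≤ #t := by
    rw [← h1]
    exact mk_le_aleph0.trans hΩ.le
  obtain ⟨e⟩ : Nonempty (s ↪ t) := h2
  have hi : AlgebraicIndependent R (fun i : s => (e i : Ω)) := ht.1.comp e e.injective
  let A := Algebra.adjoin R (Set.range ((↑) : s → F))
  let φ : A →ₐ[R] Ω := (MvPolynomial.aeval (fun i : s => (e i : Ω))).comp
    hs.1.aevalEquiv.symm.toAlgHom
  have hφ : Function.Injective φ := 
    (algebraicIndependent_iff_injective_aeval.1 hi).comp hs.1.aevalEquiv.symm.injective
  let : Algebra A Ω := φ.toRingHom.toAlgebra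
  have : FaithfulSMul A Ω := (faithfulSMul_iff_algebraMap_injective A Ω).2 hφ
  have : Algebra.IsAlgebraic A F := hs.isAlgebraic
  let σ : F →ₐ[A] Ω := IsAlgClosed.lift
  refine ⟨σ.toRingHom, fun r => ?_⟩
  have h3 : f r = algebraMap A F (algebraMap R A r) := rfl
  rw [h3]
  exact (σ.commutes _).trans (φ.commutes r)

theorem countable_of_closure {F : Type} [Field F] {T : Set F} (hT : T.Finite)
    (h : Subfield.closure T = ⊤) : Countable F := by
  have h1 := Subfield.cardinalMk_closure_le_max T
  rw [h] at h1
  have h2 : #T ≤ ℵ₀ := by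
    have := hT.to_subtype
    exact mk_le_aleph0
  have h3 : #(⊤ : Subfield F) ≤ ℵ₀ := h1.trans (max_le h2 le_rfl)
  rw [mk_congr Subfield.topEquiv.toEquiv] at h3
  exact mk_le_aleph0_iff.1 h3

/-- The conclusion. -/
def LocEmb (F : Type) [Field F] (μ : F) : Prop :=
  ∃ (k : Type) (_ : NontriviallyNormedField k) (_ : ProperSpace k) (σ : F →+* k), ‖σ μ‖ ≠ 1

/-- Archimedean base. -/
theorem locEmb_of_complex {R F : Type} [CommRing R] [Field F] {T : Set F} (hT : T.Finite)
    (h : Subfield.closure T = ⊤) (f : R →+* F) (g : R →+* ℂ) (hf : Function.Injective f)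
    (hg : Function.Injective g) (x : R) (hx : ‖g x‖ ≠ 1) : LocEmb F (f x) := by
  have := countable_of_closure hT h
  obtain ⟨σ, hσ⟩ := exists_ext (by rw [mk_complex]; exact aleph0_lt_continuum) f g hf hg
  exact ⟨ℂ, inferInstance, inferInstance, σ, by rwa [hσ]⟩

/-- Ultrametric base. -/
theorem locEmb_of_ultra {R F k : Type} [CommRing R] [Field F] [NontriviallyNormedField k]
    [ProperSpace k] [IsUltrametricDist k] {T : Set F} (hT : T.Finite)
    (h : Subfield.closure T = ⊤) (f : R →+* F) (g : R →+* k) (hf : Function.Injective f)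
    (hg : Function.Injective g) (x : R) (hx : ‖g x‖ ≠ 1) : LocEmb F (f x) := by
  have := countable_of_closure hT h
  let Ω := AlgebraicClosure k
  have hΩ : ℵ₀ < #Ω := (aleph0_lt_continuum.trans_le
    (continuum_le_cardinal_of_nontriviallyNormedField k)).trans_le
    (mk_le_of_injective (algebraMap k Ω).injective)
  obtain ⟨σ, hσ⟩ := exists_ext hΩ f ((algebraMap k Ω).comp g) hf
    ((algebraMap k Ω).injective.comp hg)
  let L := IntermediateField.adjoin k (σ '' T)
  have : Finite (σ '' T) := (hT.image σ).to_subtype
  have : FiniteDimensional k L := IntermediateField.finiteDimensional_adjoin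
    (fun y _ => Algebra.IsIntegral.isIntegral y)
  have hm : ∀ y, σ y ∈ L := by
    intro y
    have h1 : Subfield.closure T ≤ L.toSubfield.comap σ :=
      Subfield.closure_le.2 fun z hz => IntermediateField.subset_adjoin k _ ⟨z, hz, rfl⟩
    rw [h] at h1
    exact h1 (Subfield.mem_top y)
  let τ : F →+* L := σ.codRestrict L.toSubfield hm
  let : NontriviallyNormedField L := spectralNorm.nontriviallyNormedField k L
  let : NormedAlgebra k L := spectralNorm.normedAlgebra k L
  refine ⟨L, inferInstance, FiniteDimensional.proper k L, τ, ?_⟩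
  have h2 : τ (f x) = algebraMap k L (g x) := Subtype.ext (hσ x)
  rwa [h2, norm_algebraMap']

open scoped Valued in
/-- Completion of a Dedekind domain at a prime with finite residue field. -/
theorem locEmb_of_dedekind {A E F : Type} [CommRing A] [IsDedekindDomain A] [Field E]
    [Algebra A E] [IsFractionRing A E] [Field F] (v : HeightOneSpectrum A)
    [Finite (A ⧸ v.asIdeal)] {T : Set F} (hT : T.Finite)
    (h : Subfield.closure T = ⊤) (f : E →+* F) (x : E) (hx : v.valuation E x ≠ 1) :
    LocEmb F (f x) := by
  let : (Valued.v : Valuation (v.adicCompletion E) (WithZero (Multiplicative ℤ))).RankOne :=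
    Valuation.IsRankOneDiscrete.rankOne _ (e := 2) one_lt_two
  have : ProperSpace (v.adicCompletion E) := by
    rw [Valued.integer.properSpace_iff_completeSpace_and_isDiscreteValuationRing_integer_and_finite_residueField]
    refine ⟨inferInstance, inferInstanceAs (IsDiscreteValuationRing (v.adicCompletionIntegers E)), ?_⟩
    change Finite (IsLocalRing.ResidueField (v.adicCompletionIntegers E))
    let ψ : A →+* IsLocalRing.ResidueField (v.adicCompletionIntegers E) :=
      (IsLocalRing.residue _).comp (algebraMap A (v.adicCompletionIntegers E))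
    have key : ∀ z : v.adicCompletionIntegers E,
        IsLocalRing.residue _ z = 0 ↔ Valued.v (z : v.adicCompletion E) < 1 := by
      intro z
      rw [IsLocalRing.residue_eq_zero_iff]
      exact Valuation.mem_maximalIdeal_iff _ _
    have h1 : ∀ a ∈ v.asIdeal, ψ a = 0 := by
      intro a ha
      refine (key _).2 ?_
      rw [HeightOneSpectrum.algebraMap_adicCompletionIntegers_apply,
        HeightOneSpectrum.valuedAdicCompletion_eq_valuation']
      exact (v.valuation_lt_one_iff_mem a).2 ha
    refine Finite.of_surjective (Ideal.Quotient.lift v.asIdeal ψ h1) ?_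
    intro y
    obtain ⟨z, rfl⟩ := IsLocalRing.residue_surjective y
    obtain ⟨w, hw⟩ := (Metric.denseRange_iff.1 (v.denseRange_algebraMap (K := E)))
      (z : v.adicCompletion E) 1 one_pos
    rw [dist_eq_norm, Valued.toNormedField.norm_lt_one_iff] at hw
    have hz : Valued.v (z : v.adicCompletion E) ≤ 1 := z.2
    have hw1 : v.valuation E w ≤ 1 := by
      rw [← HeightOneSpectrum.valuedAdicCompletion_eq_valuation']
      have h3 : (w : v.adicCompletion E) = z - (z - algebraMap E (v.adicCompletion E) w) := by
        rw [sub_sub_cancel]; rfl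
      rw [h3]
      exact Valuation.map_sub_le _ hz hw.le
    obtain ⟨a, ha⟩ := v.exists_valuation_sub_lt_of_integer hw1 1
    refine ⟨Ideal.Quotient.mk _ a, ?_⟩
    rw [Ideal.Quotient.lift_mk]
    change IsLocalRing.residue _ (algebraMap A (v.adicCompletionIntegers E) a) = _
    rw [← sub_eq_zero, ← map_sub, key]
    rw [← HeightOneSpectrum.valuedAdicCompletion_eq_valuation'] at ha
    have h4 : ((algebraMap A (v.adicCompletionIntegers E) a - z : v.adicCompletionIntegers E) :
        v.adicCompletion E) = algebraMap E (v.adicCompletion E) (algebraMap A E a - w) -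
          (z - algebraMap E (v.adicCompletion E) w) := by
      rw [map_sub, sub_sub_sub_cancel_right]; rfl
    rw [h4]
    exact Valuation.map_sub_lt _ ha hw
  refine locEmb_of_ultra hT h f (algebraMap E (v.adicCompletion E)) f.injective
    (algebraMap E (v.adicCompletion E)).injective x fun h1 => hx ?_
  rw [← HeightOneSpectrum.valuedAdicCompletion_eq_valuation']
  exact le_antisymm (Valued.toNormedField.norm_le_one_iff.1 h1.le)
    (Valued.toNormedField.one_le_norm_iff.1 h1.ge)

open Polynomial IntermediateField NumberField in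
/-- **Embedding theorem.** -/
theorem locEmb {F : Type} [Field F] {T : Set F} (hT : T.Finite) (h : Subfield.closure T = ⊤)
    {μ : F} (h0 : μ ≠ 0) (hμ : ∀ m : ℕ, 0 < m → μ ^ m ≠ 1) : LocEmb F μ := by
  rcases CharP.char_is_prime_or_zero F (ringChar F) with hp | hp
  · have : Fact (ringChar F).Prime := ⟨hp⟩
    let := ZMod.algebra F (ringChar F)
    have ht : Transcendental (ZMod (ringChar F)) μ := by
      intro ha
      have := adjoin.finiteDimensional ha.isIntegral
      have : Finite (ZMod (ringChar F))⟮μ⟯ := Module.finite_of_finite (ZMod (ringChar F))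
      have := Fintype.ofFinite (ZMod (ringChar F))⟮μ⟯
      have h1 : AdjoinSimple.gen (ZMod (ringChar F)) μ ≠ 0 := fun h => h0 (congrArg Subtype.val h)
      refine hμ (Fintype.card (ZMod (ringChar F))⟮μ⟯ - 1) (Nat.sub_pos_of_lt Fintype.one_lt_card) ?_
      exact congrArg Subtype.val (FiniteField.pow_card_sub_one_eq_one _ h1)
    let g : (ZMod (ringChar F))[X] →+* F := (aeval μ : (ZMod (ringChar F))[X] →ₐ[ZMod (ringChar F)] F)
    have hi : Function.Injective g := transcendental_iff_injective.1 ht
    have : Finite ((ZMod (ringChar F))[X] ⧸ (Polynomial.idealX (ZMod (ringChar F))).asIdeal) := by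
      have := (AdjoinRoot.powerBasis (X_ne_zero (R := ZMod (ringChar F)))).finite
      exact Module.finite_of_finite (R := ZMod (ringChar F)) (M := AdjoinRoot X)
    have h2 := locEmb_of_dedekind (E := FractionRing (ZMod (ringChar F))[X])
      (Polynomial.idealX (ZMod (ringChar F))) hT h
      (IsFractionRing.lift hi) (algebraMap _ _ (X : (ZMod (ringChar F))[X]))
      (((Polynomial.idealX (ZMod (ringChar F))).valuation_lt_one_iff_mem X).2
        (Ideal.mem_span_singleton_self X)).ne
    rw [IsFractionRing.lift_algebraMap] at h2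
    simpa [g] using h2
  · have : CharP F 0 := hp ▸ ringChar.charP F
    have : CharZero F := CharP.charP_to_charZero F
    by_cases ha : IsAlgebraic ℚ μ
    · have := adjoin.finiteDimensional ha.isIntegral
      have : NumberField ℚ⟮μ⟯ := {}
      let x := AdjoinSimple.gen ℚ μ
      by_cases h1 : ∀ v : HeightOneSpectrum (𝓞 ℚ⟮μ⟯), v.valuation ℚ⟮μ⟯ x = 1
      · obtain ⟨y, hy⟩ := HeightOneSpectrum.mem_integers_of_valuation_le_one ℚ⟮μ⟯ x
          fun v => (h1 v).le
        have h2 : IsIntegral ℤ x := hy ▸ y.isIntegral_coe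
        by_cases h3 : ∀ φ : ℚ⟮μ⟯ →+* ℂ, ‖φ x‖ = 1
        · obtain ⟨m, hm, h4⟩ := Embeddings.pow_eq_one_of_norm_eq_one _ ℂ h2 h3
          exact (hμ m hm (congrArg Subtype.val h4)).elim
        · obtain ⟨φ, hφ⟩ := not_forall.1 h3
          exact locEmb_of_complex hT h (algebraMap ℚ⟮μ⟯ F) φ (algebraMap ℚ⟮μ⟯ F).injective
            φ.injective x hφ
      · obtain ⟨v, hv⟩ := not_forall.1 h1
        have := v.asIdeal.finiteQuotientOfFreeOfNeBot v.ne_bot
        exact locEmb_of_dedekind v hT h (algebraMap ℚ⟮μ⟯ F) x hv
    · obtain ⟨t, ht, ht1⟩ : ∃ t : ℂ, Transcendental ℚ t ∧ ‖t‖ ≠ 1 := by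
        by_contra hc
        push Not at hc
        have h1 : (Set.Ioi (1 : ℝ)).Countable := by
          refine ((Algebraic.countable ℚ ℂ).preimage Complex.ofReal_injective).mono fun r hr => ?_
          by_contra h2
          have h3 := hc r h2
          rw [Complex.norm_real, Real.norm_eq_abs, abs_of_pos (one_pos.trans hr)] at h3
          exact (Set.mem_Ioi.1 hr).ne' h3
        rw [← le_aleph0_iff_set_countable, mk_Ioi_real] at h1
        exact aleph0_lt_continuum.not_ge h1
      let f : ℚ[X] →+* F := (aeval μ : ℚ[X] →ₐ[ℚ] F)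
      let g : ℚ[X] →+* ℂ := (aeval t : ℚ[X] →ₐ[ℚ] ℂ)
      have h2 := locEmb_of_complex hT h f g (transcendental_iff_injective.1 ha)
        (transcendental_iff_injective.1 ht) X (by simpa [g] using ht1)
      simpa [f] using h2

end Vale.Agent.N215T
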