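import Vale.Agent.N215T.Zar

/-!
# Tits alternative, part 2: ping-pong with limits of rescaled group elements
-/

open Set Filter Topology

namespace Vale.Agent.N215T

variable {G : Type} [Group G] {k : Type} [NontriviallyNormedField k]
  {V : Type} [NormedAddCommGroup V] [NormedSpace k V]

/-- the group element of a letter -/
def letter (x : Fin 2 → G) (s : Fin 2 × Bool) : G := cond s.2 (x s.1) (x s.1)⁻¹

/-- **Ping-pong.** -/
theorem pingpong [CompleteSpace k] [FiniteDimensional k V] (ρ : G →* (V →L[k] V))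
    (A : Fin 2 × Bool → V →L[k] V)
    (hinj : ∀ s t : Fin 2 × Bool, (s.1 = t.1 → s.2 = t.2) → ∀ v, A s (A t v) = 0 → A t v = 0)
    (h0 : ∀ s, A s ≠ 0) (h1 : ∀ s, (A s).range ≠ ⊤)
    (happ : ∀ δ : ℝ, 0 < δ → ∃ x : Fin 2 → G, ∀ s, ∃ c : k, ‖c • ρ (letter x s) - A s‖ < δ) :
    ∃ ι : FreeGroup (Fin 2) →* G, Function.Injective ι := by
  -- the base vector
  obtain ⟨v₀, hv₀⟩ := Submodule.exists_forall_notMem_of_forall_ne_top
    (fun z : (Fin 2 × Bool) × Bool => if z.2 then (A z.1).range else (A z.1).ker) (by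
      rintro ⟨s, b⟩
      cases b
      · simp only [Bool.false_eq_true, if_false]
        intro h
        apply h0 s
        ext v
        have : v ∈ (A s).ker := by rw [h]; trivial
        simpa using this
      · simpa using h1 s)
  have hv1 : ∀ s, v₀ ∉ (A s).range := fun s => by simpa using hv₀ (s, true)
  have hv2 : ∀ s, A s v₀ ≠ 0 := fun s => by simpa using hv₀ (s, false)
  have hv0 : v₀ ≠ 0 := fun h => hv2 (0, true) (by rw [h, map_zero])
  have hv0' : 0 < ‖v₀‖ := norm_pos_iff.2 hv0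
  -- the constant of injectivity
  have hκ : ∀ᶠ κ : ℝ in 𝓝[>] 0, (∀ z : (Fin 2 × Bool) × (Fin 2 × Bool),
      (z.1.1 = z.2.1 → z.1.2 = z.2.2) → ∀ w ∈ (A z.2).range, κ * ‖w‖ ≤ ‖A z.1 w‖) ∧
      ∀ s, κ * ‖v₀‖ ≤ ‖A s v₀‖ := by
    refine (eventually_all.2 ?_).and (eventually_all.2 fun s => ?_)
    · rintro ⟨s, t⟩
      by_cases hst : s.1 = t.1 → s.2 = t.2
      · obtain ⟨K, hK, hK'⟩ := LinearMap.exists_antilipschitzWith
          ((A s : V →ₗ[k] V).domRestrict (A t).range) (by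
            rw [LinearMap.ker_eq_bot']
            rintro ⟨w, v, rfl⟩ hw
            exact Subtype.ext (hinj s t hst v hw))
        have hK0 : (0 : ℝ) < K := hK
        filter_upwards [Ioc_mem_nhdsGT (show (0 : ℝ) < (K : ℝ)⁻¹ by positivity)] with κ hκ _ w hw
        have h2 := hK'.le_mul_norm (map_zero _) ⟨w, hw⟩
        change ‖w‖ ≤ K * ‖A s w‖ at h2
        calc κ * ‖w‖ ≤ (K : ℝ)⁻¹ * (K * ‖A s w‖) :=
              mul_le_mul hκ.2 h2 (norm_nonneg _) (by positivity)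
          _ = ‖A s w‖ := by field_simp
      · exact Eventually.of_forall fun κ h => absurd h hst
    · have h2 : 0 < ‖A s v₀‖ / ‖v₀‖ := div_pos (norm_pos_iff.2 (hv2 s)) hv0'
      filter_upwards [Ioc_mem_nhdsGT h2] with κ hκ
      exact (le_div_iff₀ hv0').1 hκ.2
  obtain ⟨κ, ⟨hκ1, hκ2⟩, hκ0⟩ := (hκ.and self_mem_nhdsWithin).exists
  have hκ0 : 0 < κ := hκ0
  -- the opening of the cones
  have hε : ∀ᶠ ε : ℝ in 𝓝[>] 0, (∀ s, ε * (κ + ‖A s‖) ≤ κ / 2) ∧
      ∀ s, ∀ w ∈ (A s).range, ε * ‖v₀‖ < ‖v₀ - w‖ := by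
    refine (eventually_all.2 fun s => ?_).and (eventually_all.2 fun s => ?_)
    · have h2 : 0 < κ + ‖A s‖ := by positivity
      filter_upwards [Ioc_mem_nhdsGT (show 0 < κ / 2 / (κ + ‖A s‖) by positivity)] with ε hε
      exact (le_div_iff₀ h2).1 hε.2
    · have hc : IsClosed ((A s).range : Set V) := Submodule.closed_of_finiteDimensional _
      obtain ⟨r, hr, hb⟩ := Metric.isOpen_iff.1 hc.isOpen_compl v₀ (hv1 s)
      filter_upwards [Ioo_mem_nhdsGT (show 0 < r / ‖v₀‖ by positivity)] with ε hε w hw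
      have h2 : ε * ‖v₀‖ < r := (lt_div_iff₀ hv0').1 hε.2
      refine h2.trans_le (not_lt.1 fun h3 => hb ?_ hw)
      rwa [Metric.mem_ball, dist_eq_norm, norm_sub_rev]
  obtain ⟨ε, ⟨hε1, hε2⟩, hε0⟩ := (hε.and self_mem_nhdsWithin).exists
  have hε0 : 0 < ε := hε0
  obtain ⟨x, hx⟩ := happ (min (κ / 4) (ε * κ / 4)) (by positivity)
  -- cones and good vectors
  let C : Fin 2 × Bool → V → Prop := fun t v => v ≠ 0 ∧ ∃ w ∈ (A t).range, ‖v - w‖ ≤ ε * ‖v‖
  let D : Fin 2 × Bool → V → Prop := fun s v => v ≠ 0 ∧ κ / 2 * ‖v‖ ≤ ‖A s v‖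
  have hCD : ∀ s t : Fin 2 × Bool, (s.1 = t.1 → s.2 = t.2) → ∀ v, C t v → D s v := by
    rintro s t hst v ⟨hv, w, hw, hvw⟩
    refine ⟨hv, ?_⟩
    have h2 := hκ1 (s, t) hst w hw
    have h3 : ‖A s (v - w)‖ ≤ ‖A s‖ * (ε * ‖v‖) :=
      ((A s).le_opNorm _).trans (mul_le_mul_of_nonneg_left hvw (norm_nonneg _))
    have h4 : ‖A s w‖ ≤ ‖A s v‖ + ‖A s (v - w)‖ := by
      rw [map_sub]
      have := norm_sub_le (A s v) (A s v - A s w)
      rwa [sub_sub_cancel] at this
    have h5 : ‖v‖ ≤ ‖w‖ + ‖v - w‖ := by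
      have := norm_add_le w (v - w)
      rwa [add_sub_cancel] at this
    have h6 := mul_le_mul_of_nonneg_right (hε1 s) (norm_nonneg v)
    have h7 := mul_le_mul_of_nonneg_left (h5.trans (add_le_add_right hvw _)) hκ0.le
    simp only at h2
    nlinarith
  have hDC : ∀ s v, D s v → C s (ρ (letter x s) v) := by
    rintro s v ⟨hv, hv'⟩
    obtain ⟨c, hc⟩ := hx s
    have hn : 0 < ‖v‖ := norm_pos_iff.2 hv
    have h2 : ‖c • ρ (letter x s) v - A s v‖ ≤ min (κ / 4) (ε * κ / 4) * ‖v‖ :=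
      ((c • ρ (letter x s) - A s).le_opNorm v).trans
        (mul_le_mul_of_nonneg_right hc.le (norm_nonneg _))
    have h3 := h2.trans (mul_le_mul_of_nonneg_right (min_le_left _ _) hn.le)
    have h4 := h2.trans (mul_le_mul_of_nonneg_right (min_le_right _ _) hn.le)
    have h5 : κ / 4 * ‖v‖ ≤ ‖c • ρ (letter x s) v‖ := by
      have := norm_sub_le (c • ρ (letter x s) v) (c • ρ (letter x s) v - A s v)
      rw [sub_sub_cancel] at this
      linarith
    have h6 : c • ρ (letter x s) v ≠ 0 := by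
      rw [← norm_pos_iff]
      exact lt_of_lt_of_le (by positivity) h5
    have hc0 : c ≠ 0 := left_ne_zero_of_smul h6
    refine ⟨right_ne_zero_of_smul h6, c⁻¹ • A s v, Submodule.smul_mem _ _ ⟨v, rfl⟩, ?_⟩
    have e : ρ (letter x s) v - c⁻¹ • A s v = c⁻¹ • (c • ρ (letter x s) v - A s v) := by
      rw [smul_sub, smul_smul, inv_mul_cancel₀ hc0, one_smul]
    have h7 : ‖c • ρ (letter x s) v - A s v‖ ≤ ε * ‖c • ρ (letter x s) v‖ := by
      have := mul_le_mul_of_nonneg_left h5 hε0.le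
      linarith
    have hc1 : 0 < ‖c‖ := norm_pos_iff.2 hc0
    rw [e, norm_smul, norm_inv, inv_mul_le_iff₀ hc1]
    rw [norm_smul] at h7
    linarith
  have hD0 : ∀ s, D s v₀ := fun s => ⟨hv0, by nlinarith [hκ2 s]⟩
  have key : ∀ (L : List (Fin 2 × Bool)) (s : Fin 2 × Bool), FreeGroup.IsReduced (s :: L) →
      C s (ρ (((s :: L).map (letter x)).prod) v₀) := by
    intro L
    induction L with
    | nil =>
      intro s _
      simpa using hDC s v₀ (hD0 s)
    | cons t L ih =>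
      intro s hr
      have h2 := List.isChain_cons_cons.1 hr
      have h3 := hDC s _ (hCD s t h2.1 _ (ih t h2.2))
      rw [List.map_cons, List.prod_cons, map_mul]
      exact h3
  refine ⟨FreeGroup.lift x, (injective_iff_map_eq_one _).2 fun w hw => ?_⟩
  by_contra hne
  have h2 : w.toWord ≠ [] := fun h => hne (FreeGroup.toWord_eq_nil_iff.1 h)
  obtain ⟨s, L, hL⟩ := List.exists_cons_of_ne_nil h2
  have h3 := key L s (hL ▸ FreeGroup.isReduced_toWord)
  have h4 : ((s :: L).map (letter x)).prod = 1 := by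
    rw [← hw, ← hL]
    conv_rhs => rw [← FreeGroup.mk_toWord (x := w), FreeGroup.lift_mk]
    rfl
  rw [h4, map_one] at h3
  obtain ⟨-, u, hu, hu'⟩ := h3
  exact absurd hu' (not_le.2 (hε2 s u hu))

/-- limits of rescaled pairs `(g, g⁻¹)` -/
def Lim (ρ : G →* (V →L[k] V)) : Set ((V →L[k] V) × (V →L[k] V)) :=
  closure {z | ∃ (g : G) (c c' : k), z = (c • ρ g, c' • ρ g⁻¹)}

namespace Lim

variable {ρ : G →* (V →L[k] V)}

theorem const (g : G) : (ρ g, ρ g⁻¹) ∈ Lim ρ := subset_closure ⟨g, 1, 1, by simp⟩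

theorem const' (g : G) : (ρ g⁻¹, ρ g) ∈ Lim ρ := by simpa using const (ρ := ρ) g⁻¹

theorem swap {a b : V →L[k] V} (h : (a, b) ∈ Lim ρ) : (b, a) ∈ Lim ρ :=
  map_mem_closure (f := Prod.swap) continuous_swap h (by
    rintro _ ⟨g, c, c', rfl⟩
    exact ⟨g⁻¹, c', c, by simp⟩)

theorem mul {a b a' b' : V →L[k] V} (h : (a, b) ∈ Lim ρ) (h' : (a', b') ∈ Lim ρ) :
    (a * a', b' * b) ∈ Lim ρ :=
  map_mem_closure₂ (f := fun z w : (V →L[k] V) × (V →L[k] V) => (z.1 * w.1, w.2 * z.2))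
    (by unfold Function.uncurry; fun_prop) h h' (by
    rintro _ ⟨g, c, c', rfl⟩ _ ⟨g', d, d', rfl⟩
    exact ⟨g * g', c * d, d' * c', by simp [smul_smul, mul_comm]⟩)

theorem ne_zero [Nontrivial V] (g : G) : ρ g ≠ 0 := fun h => by
  have : ρ g * ρ g⁻¹ = 1 := by rw [← map_mul, mul_inv_cancel, map_one]
  rw [h, zero_mul] at this
  exact zero_ne_one this

theorem partner [ProperSpace k] [FiniteDimensional k V] [Nontrivial V] {a b : V →L[k] V}
    (h : (a, b) ∈ Lim ρ) : ∃ b', b' ≠ 0 ∧ (a, b') ∈ Lim ρ := by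
  have : ProperSpace (V →L[k] V) := FiniteDimensional.proper k _
  obtain ⟨z, hz, hlim⟩ := mem_closure_iff_seq_limit.1 h
  choose g c c' hz using hz
  obtain ⟨e, he⟩ := NormedField.exists_one_lt_norm k
  choose d _ hd1 hd2 _ using fun m => rescale_to_shell he one_pos (ne_zero (ρ := ρ) (g m)⁻¹)
  obtain ⟨b', -, φ, hφ, hb'⟩ := (isCompact_closedBall (0 : V →L[k] V) 1).tendsto_subseq
    (x := fun m => d m • ρ (g m)⁻¹) fun m => mem_closedBall_zero_iff.2 (hd1 m).le
  refine ⟨b', ?_, ?_⟩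
  · rw [← norm_pos_iff]
    refine lt_of_lt_of_le (show 0 < 1 / ‖e‖ by positivity) ?_
    exact ge_of_tendsto' hb'.norm fun m => hd2 _
  · refine mem_closure_of_tendsto (f := fun m => (c (φ m) • ρ (g (φ m)), d (φ m) • ρ (g (φ m))⁻¹))
      (b := atTop) (Tendsto.prodMk_nhds ?_ hb') (Eventually.of_forall fun m => ⟨_, _, _, rfl⟩)
    have h1 := ((continuous_fst.tendsto _).comp hlim).comp hφ.tendsto_atTop
    refine h1.congr fun m => ?_
    simp [hz]

theorem approx {a b : V →L[k] V} (h : (a, b) ∈ Lim ρ) {δ : ℝ} (hδ : 0 < δ) :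
    ∃ (g : G) (c c' : k), ‖c • ρ g - a‖ < δ ∧ ‖c' • ρ g⁻¹ - b‖ < δ := by
  obtain ⟨_, ⟨g, c, c', rfl⟩, hz⟩ := Metric.mem_closure_iff.1 h δ hδ
  rw [Prod.dist_eq, max_lt_iff, dist_comm, dist_comm b, dist_eq_norm, dist_eq_norm] at hz
  exact ⟨g, c, c', hz⟩

end Lim

/-- **A strongly irreducible group with a singular limit contains a free group.** -/
theorem free_of_singular [ProperSpace k] [FiniteDimensional k V] (ρ : G →* (V →L[k] V))
    (hgen : ∀ (ι : Type) [Finite ι] (p q : ι → V →L[k] V), (∀ i, p i ≠ 0) → (∀ i, q i ≠ 0) →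
      ∃ g, ∀ i, p i * ρ g * q i ≠ 0 ∧ p i * ρ g⁻¹ * q i ≠ 0)
    {a b : V →L[k] V} (hab : (a, b) ∈ Lim ρ) (ha : a ≠ 0) (ha' : a.range ≠ ⊤) :
    ∃ ι : FreeGroup (Fin 2) →* G, Function.Injective ι := by
  classical
  have : Nontrivial V := by
    by_contra h
    rw [not_nontrivial_iff_subsingleton] at h
    exact ha (Subsingleton.elim _ _)
  let rk : (V →L[k] V) → ℕ := fun a => Module.finrank k a.range
  have hex : ∃ m, ∃ a b, (a, b) ∈ Lim ρ ∧ a ≠ 0 ∧ rk a = m := ⟨_, a, b, hab, ha, rfl⟩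
  obtain ⟨a₀, b, hab₀, ha₀, hr⟩ := Nat.find_spec hex
  set r := Nat.find hex with hrd
  have hmin : ∀ a b, (a, b) ∈ Lim ρ → a ≠ 0 → r ≤ rk a := fun a b h1 h2 =>
    Nat.find_min' hex ⟨a, b, h1, h2, rfl⟩
  have hrn : r < Module.finrank k V := (hmin a _ hab ha).trans_lt (Submodule.finrank_lt ha')
  have hl : ∀ x y : V →L[k] V, rk (x * y) ≤ rk x := fun x y =>
    Submodule.finrank_mono (by rintro _ ⟨v, rfl⟩; exact ⟨y v, rfl⟩)
  have hr' : ∀ x y : V →L[k] V, rk (x * y) ≤ rk y := fun x y => by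
    have : (x * y).range = y.range.map (x : V →ₗ[k] V) := by
      ext v; simp
    simp only [rk]
    rw [this]
    exact Submodule.finrank_map_le _ _
  have hkey : ∀ x x' y y' : V →L[k] V, (x, x') ∈ Lim ρ → (y, y') ∈ Lim ρ → rk y ≤ r →
      x * y ≠ 0 → ∀ v, x (y v) = 0 → y v = 0 := by
    intro x x' y y' hx hy hyr hxy v hv
    have h1 := hmin _ _ (Lim.mul hx hy) hxy
    have h2 := ((x : V →ₗ[k] V).domRestrict y.range).finrank_range_add_finrank_ker
    have h3 : ((x : V →ₗ[k] V).domRestrict y.range).range = (x * y).range := by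
      rw [LinearMap.range_domRestrict]
      ext v; simp
    rw [h3] at h2
    have h4 : Module.finrank k ((x : V →ₗ[k] V).domRestrict y.range).ker = 0 := by
      simp only [rk] at h1 hyr
      omega
    rw [Submodule.finrank_eq_zero, LinearMap.ker_eq_bot'] at h4
    exact congrArg Subtype.val (h4 ⟨y v, v, rfl⟩ hv)
  have hunit : ∀ (x : V →L[k] V) (g : G), x * ρ g = 0 → x = 0 := fun x g h => by
    have : x * ρ g * ρ g⁻¹ = x := by rw [mul_assoc, ← map_mul, mul_inv_cancel, map_one, mul_one]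
    rw [← this, h, zero_mul]
  have hunit' : ∀ (x : V →L[k] V) (g : G), ρ g * x = 0 → x = 0 := fun x g h => by
    have : ρ g⁻¹ * (ρ g * x) = x := by rw [← mul_assoc, ← map_mul, inv_mul_cancel, map_one, one_mul]
    rw [← this, h, mul_zero]
  obtain ⟨b₀, hb₀, hab₀⟩ := Lim.partner hab₀
  obtain ⟨h, hh⟩ := hgen Unit (fun _ => a₀) (fun _ => b₀) (fun _ => ha₀) fun _ => hb₀
  obtain ⟨ha₁, hb₁⟩ := hh ()
  have hab₁ : (a₀ * ρ h * b₀, a₀ * ρ h⁻¹ * b₀) ∈ Lim ρ := by
    have := Lim.mul (Lim.mul hab₀ (Lim.const h)) (Lim.swap hab₀)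
    rwa [← mul_assoc] at this
  have ra₁ : rk (a₀ * ρ h * b₀) ≤ r := ((hl _ _).trans (hl _ _)).trans hr.le
  have rb₁ : rk (a₀ * ρ h⁻¹ * b₀) ≤ r := ((hl _ _).trans (hl _ _)).trans hr.le
  generalize a₀ * ρ h * b₀ = a₁ at ha₁ hab₁ ra₁
  generalize a₀ * ρ h⁻¹ * b₀ = b₁ at hb₁ hab₁ rb₁
  obtain ⟨h', hh'⟩ := hgen Bool (fun s => cond s a₁ b₁) (fun s => cond s a₁ b₁)
    (by rintro (_ | _) <;> assumption) (by rintro (_ | _) <;> assumption)
  let P : Bool → V →L[k] V := fun s => cond s (a₁ * ρ h') (ρ h'⁻¹ * b₁)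
  have hP : (P true, P false) ∈ Lim ρ := Lim.mul hab₁ (Lim.const h')
  have hPP : ∀ s, P s * P s ≠ 0 := by
    rintro (_ | _) h0
    · refine (hh' false).2 (hunit' _ h'⁻¹ ?_)
      rw [← h0]
      simp only [P, cond, mul_assoc]
    · refine (hh' true).1 (hunit _ h' ?_)
      rw [← h0]
      simp only [P, cond, mul_assoc]
  have hP0 : ∀ s, P s ≠ 0 := fun s h0 => hPP s (by rw [h0, zero_mul])
  have hPr : ∀ s, rk (P s) ≤ r := by
    rintro (_ | _)
    · exact (hr' _ _).trans rb₁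
    · exact (hl _ _).trans ra₁
  obtain ⟨c, hc⟩ := hgen (Bool × Bool) (fun z => P z.1) (fun z => P z.2) (fun z => hP0 _)
    fun z => hP0 _
  let A : Fin 2 × Bool → V →L[k] V := fun s => if s.1 = 0 then P s.2 else ρ c * P s.2 * ρ c⁻¹
  have hA : ∀ i, (A (i, true), A (i, false)) ∈ Lim ρ := by
    intro i
    by_cases hi : i = 0
    · simpa [A, hi] using hP
    · have := Lim.mul (Lim.mul (Lim.const c) hP) (Lim.const' c)
      simpa [A, hi, mul_assoc] using this
  have hA' : ∀ s, ∃ y, (A s, y) ∈ Lim ρ := by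
    rintro ⟨i, _ | _⟩
    · exact ⟨_, Lim.swap (hA i)⟩
    · exact ⟨_, hA i⟩
  have hAr : ∀ s, rk (A s) ≤ r := by
    intro s
    by_cases hi : s.1 = 0
    · simpa [A, hi] using hPr s.2
    · simp only [A, hi, if_false]
      exact ((hl _ _).trans (hr' _ _)).trans (hPr _)
  have hcc : ρ c⁻¹ * ρ c = 1 := by rw [← map_mul, inv_mul_cancel, map_one]
  have hAA : ∀ s t : Fin 2 × Bool, (s.1 = t.1 → s.2 = t.2) → A s * A t ≠ 0 := by
    rintro ⟨i, s⟩ ⟨j, t⟩ hst h0
    by_cases hi : i = 0 <;> by_cases hj : j = 0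
    · obtain rfl : s = t := hst (hi.trans hj.symm)
      exact hPP s (by simpa [A, hi, hj] using h0)
    · refine (hc (s, t)).1 (hunit _ c⁻¹ ?_)
      simpa [A, hi, hj, mul_assoc] using h0
    · refine (hc (s, t)).2 (hunit' _ c ?_)
      simpa [A, hi, hj, mul_assoc] using h0
    · obtain rfl : s = t := hst (by change i = j; omega)
      refine hPP s (hunit _ c⁻¹ (hunit' _ c ?_))
      rw [← h0]
      simp only [A, hi, hj, if_false, mul_assoc]
      rw [← mul_assoc (ρ c⁻¹) (ρ c), hcc, one_mul]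
  refine pingpong ρ A (fun s t hst => ?_) (fun s h0 => hAA s s (fun _ => rfl) (by rw [h0, zero_mul]))
    (fun s h0 => ?_) fun δ hδ => ?_
  · obtain ⟨x', hx⟩ := hA' s
    obtain ⟨y', hy⟩ := hA' t
    exact hkey _ _ _ _ hx hy (hAr t) (hAA s t hst)
  · have := hAr s
    simp only [rk] at this
    rw [h0, finrank_top] at this
    omega
  · choose x c c' hx using fun i => Lim.approx (hA i) hδ
    refine ⟨x, ?_⟩
    rintro ⟨i, _ | _⟩
    · exact ⟨_, (hx i).2⟩
    · exact ⟨_, (hx i).1⟩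

/-- **A strongly irreducible group over a local field with an element of determinant one which has
an eigenvalue of absolute value `≠ 1` contains a free group.** -/
theorem free_of_eigen [ProperSpace k] [FiniteDimensional k V] (ρ : G →* Module.End k V)
    (hρ : SIrr ρ) {g : G} (hdet : LinearMap.det (ρ g) = 1) {μ : k} (hμ : (ρ g).HasEigenvalue μ)
    (hn : ‖μ‖ ≠ 1) : ∃ ι : FreeGroup (Fin 2) →* G, Function.Injective ι := by
  wlog h1 : 1 < ‖μ‖ generalizing g μ
  · obtain ⟨v, hv⟩ := hμ.exists_hasEigenvector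
    have h2 : ρ g⁻¹ (ρ g v) = v := by
      rw [← Module.End.mul_apply, ← map_mul, inv_mul_cancel, map_one, Module.End.one_apply]
    rw [hv.apply_eq_smul, map_smul] at h2
    have h3 : μ ≠ 0 := fun h => hv.2 (by rw [← h2, h, zero_smul])
    have h4 : 1 < ‖μ⁻¹‖ := by
      rw [norm_inv]
      exact (one_lt_inv₀ (norm_pos_iff.2 h3)).2 (lt_of_le_of_ne (not_lt.1 h1) hn)
    refine this (g := g⁻¹) (μ := μ⁻¹) ?_ ?_ h4.ne' h4
    · have : LinearMap.det (ρ g⁻¹) * LinearMap.det (ρ g) = 1 := by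
        rw [← map_mul, ← map_mul, inv_mul_cancel, map_one, map_one]
      rwa [hdet, mul_one] at this
    · refine Module.End.hasEigenvalue_of_hasEigenvector (x := v) ⟨?_, hv.2⟩
      rw [Module.End.mem_eigenspace_iff]
      conv_rhs => rw [← h2, smul_smul, inv_mul_cancel₀ h3, one_smul]
  obtain ⟨v, hv⟩ := hμ.exists_hasEigenvector
  have : Nontrivial V := nontrivial_of_ne v 0 hv.2
  have : ProperSpace (V →L[k] V) := FiniteDimensional.proper k _
  let ρ' : G →* (V →L[k] V) := (Module.End.toContinuousLinearMap V).toMonoidHom.comp ρ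
  have hρ' : ∀ g, (ρ' g : V →ₗ[k] V) = ρ g := fun g => rfl
  obtain ⟨e, he⟩ := NormedField.exists_one_lt_norm k
  choose d _ hd1 hd2 _ using fun m : ℕ => rescale_to_shell he one_pos (Lim.ne_zero (ρ := ρ') (g ^ m))
  obtain ⟨a, -, φ, hφ, ha⟩ := (isCompact_closedBall (0 : V →L[k] V) 1).tendsto_subseq
    (x := fun m => d m • ρ' (g ^ m)) fun m => mem_closedBall_zero_iff.2 (hd1 m).le
  have hv0 : 0 < ‖v‖ := norm_pos_iff.2 hv.2
  have hd : Tendsto d atTop (𝓝 0) := by
    refine squeeze_zero_norm (a := fun m => ‖μ‖⁻¹ ^ m) (fun m => ?_)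
      (tendsto_pow_atTop_nhds_zero_of_lt_one (by positivity) (inv_lt_one_of_one_lt₀ h1))
    have h2 := (d m • ρ' (g ^ m)).le_opNorm v
    have h3 : (d m • ρ' (g ^ m)) v = d m • μ ^ m • v := by
      change d m • ρ (g ^ m) v = _
      rw [map_pow, hv.pow_apply]
    rw [h3, norm_smul, norm_smul, norm_pow, ← mul_assoc] at h2
    have h4 := (le_of_mul_le_mul_right h2 hv0).trans (hd1 m).le
    rw [inv_pow, ← one_div, le_div_iff₀ (by positivity)]
    exact h4
  refine free_of_singular ρ' (fun ι _ p q hp hq => ?_) (a := a) (b := 0) ?_ ?_ ?_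
  · obtain ⟨g, hg⟩ := hρ.generic (fun i => (p i : V →ₗ[k] V)) (fun i => (q i : V →ₗ[k] V))
      (fun i h => hp i (ContinuousLinearMap.coe_injective h))
      fun i h => hq i (ContinuousLinearMap.coe_injective h)
    exact ⟨g, fun i => ⟨fun h => (hg i).1 (congrArg (fun z : V →L[k] V => (z : V →ₗ[k] V)) h),
      fun h => (hg i).2 (congrArg (fun z : V →L[k] V => (z : V →ₗ[k] V)) h)⟩⟩
  · exact mem_closure_of_tendsto (f := fun m => (d (φ m) • ρ' (g ^ φ m), (0 : V →L[k] V)))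
      (b := atTop) (Tendsto.prodMk_nhds ha tendsto_const_nhds)
      (Eventually.of_forall fun m => ⟨g ^ φ m, d (φ m), 0, by simp⟩)
  · rw [← norm_pos_iff]
    refine lt_of_lt_of_le (show 0 < 1 / ‖e‖ by positivity) ?_
    exact ge_of_tendsto' ha.norm fun m => hd2 _
  · refine (LinearMap.range_lt_top_of_det_eq_zero ?_).ne
    have t1 := (ContinuousLinearMap.continuous_det.tendsto a).comp ha
    have t2 := (hd.comp hφ.tendsto_atTop).pow (Module.finrank k V)
    rw [zero_pow Module.finrank_pos.ne'] at t2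
    refine tendsto_nhds_unique t1 (t2.congr fun m => ?_)
    change _ = LinearMap.det (d (φ m) • ρ (g ^ φ m))
    rw [LinearMap.det_smul, map_pow, map_pow, hdet, one_pow, mul_one]
    rfl

end Vale.Agent.N215T
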