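import Vale.Agent.N215T.Tits

/-!
# The alternative of Tits over commutative rings
-/

namespace Vale.Agent.N215T

variable {G R : Type} [Group G] [CommRing R] {n : ℕ}

/-- Reduction of a representation modulo an ideal. -/
def red (τ : G →* Matrix (Fin n) (Fin n) R) (I : Ideal R) : G →* Matrix (Fin n) (Fin n) (R ⧸ I) :=
  (Ideal.Quotient.mk I).mapMatrix.toMonoidHom.comp τ

theorem map_eq_iff (I : Ideal R) (a b : Matrix (Fin n) (Fin n) R) :
    (Ideal.Quotient.mk I).mapMatrix a = (Ideal.Quotient.mk I).mapMatrix b ↔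
      ∀ i j, (a - b) i j ∈ I := by
  rw [← Matrix.ext_iff]
  exact forall₂_congr fun i j => Ideal.Quotient.eq

theorem red_eq_one (τ : G →* Matrix (Fin n) (Fin n) R) (I : Ideal R) (g : G) :
    red τ I g = 1 ↔ ∀ i j, (τ g - 1) i j ∈ I := by
  rw [← map_eq_iff, map_one]
  rfl

theorem vs_prime [Group.FG G] (hG : NoF G) (τ : G →* Matrix (Fin n) (Fin n) R) (I : Ideal R)
    [I.IsPrime] : VS (red τ I) := by
  let K := FractionRing (R ⧸ I)
  let e : Matrix (Fin n) (Fin n) K ≃ₐ[K] Module.End K (Fin n → K) := Matrix.toLinAlgEquiv'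
  let j := e.toAlgHom.toRingHom.comp (algebraMap (R ⧸ I) K).mapMatrix
  have hj : Function.Injective j :=
    e.injective.comp (Matrix.map_injective (IsFractionRing.injective (R ⧸ I) K))
  exact (tits _ K (Fin n → K) G rfl hG (j.toMonoidHom.comp (red τ I))).of_ker _
    fun g hg => hj ((MonoidHom.mem_ker.1 hg).trans (map_one j).symm)

theorem vs_sInf (τ : G →* Matrix (Fin n) (Fin n) R) {P : Set (Ideal R)} (hP : P.Finite)
    (h : ∀ I ∈ P, VS (red τ I)) : VS (red τ (sInf P)) := by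
  induction P, hP using Set.Finite.induction_on with
  | empty =>
    refine ⟨⊤, inferInstance, 0, fun g _ => (red_eq_one _ _ _).2 fun i j => ?_⟩
    rw [sInf_empty]
    trivial
  | insert _ _ ih =>
    refine ((h _ (Set.mem_insert _ _)).prod
      (ih fun I hI => h I (Set.mem_insert_of_mem _ hI))).of_ker _ fun g hg => ?_
    obtain ⟨h1, h2⟩ := Prod.ext_iff.1 (MonoidHom.mem_ker.1 hg)
    refine (red_eq_one _ _ _).2 fun i j => ?_
    rw [sInf_insert]
    exact ⟨(red_eq_one _ _ _).1 h1 i j, (red_eq_one _ _ _).1 h2 i j⟩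

theorem vs_pow (τ : G →* Matrix (Fin n) (Fin n) R) {I : Ideal R} (h : VS (red τ I)) :
    ∀ k, VS (red τ (I ^ (k + 1)))
  | 0 => by rwa [zero_add, pow_one]
  | k + 1 => by
    have : (MonoidHom.id G).range.FiniteIndex := by
      rw [MonoidHom.range_eq_top.2 Function.surjective_id]
      infer_instance
    refine (vs_pow τ h k).transfer (MonoidHom.id G) _ fun a b ha hb => ?_
    have key : ∀ a b, red τ (I ^ (k + 1)) a = 1 → red τ (I ^ (k + 1)) b = 1 → ∀ i j,
        ((τ a - 1) * (τ b - 1)) i j ∈ I ^ (k + 1 + 1) := by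
      intro a b ha hb i j
      rw [Matrix.mul_apply, pow_succ]
      exact Ideal.sum_mem _ fun l _ => Ideal.mul_mem_mul ((red_eq_one _ _ _).1 ha i l)
        (Ideal.pow_le_self k.succ_ne_zero ((red_eq_one _ _ _).1 hb l j))
    rw [MonoidHom.id_apply, MonoidHom.id_apply, ← map_mul, ← map_mul]
    refine (map_eq_iff (I ^ (k + 1 + 1)) (τ (a * b)) (τ (b * a))).2 fun i j => ?_
    have h1 : τ (a * b) - τ (b * a) = (τ a - 1) * (τ b - 1) - (τ b - 1) * (τ a - 1) := by
      rw [map_mul, map_mul]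
      noncomm_ring
    rw [h1]
    exact Ideal.sub_mem _ (key a b ha hb i j) (key b a hb ha i j)

theorem vs_ring [Group.FG G] (hG : NoF G) (ρ : G →* Matrix (Fin n) (Fin n) R) : VS ρ := by
  obtain ⟨S, hS, hS'⟩ := Monoid.fg_iff.1 (inferInstance : Monoid.FG G)
  let T := {x | ∃ s ∈ S, ∃ i j, ρ s i j = x}
  let A := Algebra.adjoin ℤ T
  have : Algebra.FiniteType ℤ A :=
    (Subalgebra.fg_iff_finiteType A).1 (Subalgebra.fg_def.2 ⟨T, finite_entries ρ hS', rfl⟩)
  have : IsNoetherianRing A := Algebra.FiniteType.isNoetherianRing ℤ A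
  let f : A →+* R := A.val
  obtain ⟨τ, hτ⟩ := exists_lift f Subtype.val_injective ρ hS
    fun s hs i j => ⟨⟨ρ s i j, Algebra.subset_adjoin ⟨s, hs, i, j, rfl⟩⟩, rfl⟩
  have h1 := vs_sInf τ (minimalPrimes.finite_of_isNoetherianRing A) fun I hI => by
    have := hI.1.1
    exact vs_prime hG τ I
  rw [minimalPrimes, Ideal.sInf_minimalPrimes] at h1
  obtain ⟨k, hk⟩ := IsNoetherianRing.isNilpotent_nilradical A
  refine (vs_pow τ h1 k).of_ker _ fun g hg => ?_
  have h2 : τ g - 1 = 0 := by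
    ext1 i j
    have h3 := Ideal.pow_le_pow_right k.le_succ ((red_eq_one _ _ _).1 hg i j)
    exact (hk.le h3 : _ ∈ (⊥ : Ideal A))
  rw [MonoidHom.mem_ker, ← hτ, sub_eq_zero.1 h2, map_one]

/-- **The alternative of Tits.** -/
theorem tits_alternative [Group.FG G] (ρ : G →* GL (Fin n) R) (hρ : Function.Injective ρ)
    (hG : NoF G) : ∃ S : Subgroup G, S.FiniteIndex ∧ Group.IsSolvable S := by
  obtain ⟨S, hS, m, hm⟩ := vs_ring hG ((Units.coeHom _).comp ρ)
  refine ⟨S, hS, m, ?_⟩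
  rw [← Der_top, eq_bot_iff]
  intro g hg
  have h1 : (g : G) ∈ Der S m := by
    have h2 := Der_map (⊤ : Subgroup S) S.subtype m
    rw [← MonoidHom.range_eq_map, Subgroup.range_subtype] at h2
    rw [h2]
    exact ⟨g, hg, rfl⟩
  have h3 : ρ g = 1 := Units.ext (MonoidHom.mem_ker.1 (hm h1))
  exact Subtype.ext (hρ (h3.trans (map_one ρ).symm))

end Vale.Agent.N215T
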