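import Mathlib

/-!
# Irreducible groups of matrices whose eigenvalues are roots of unity

A finitely generated irreducible group of matrices over an algebraically closed field, all of whose
eigenvalues are roots of unity, is finite.
-/

namespace Vale.Agent.N215T

open Polynomial

variable {G n : Type} [Group G] [Fintype n] [DecidableEq n]

/-- Descent of a representation by matrices to a subring. -/
theorem exists_lift {R K : Type} [CommRing R] [CommRing K] (f : R →+* K)
    (hf : Function.Injective f) (ρ : G →* Matrix n n K) {S : Set G}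
    (hS : Submonoid.closure S = ⊤) (h : ∀ s ∈ S, ∀ i j, ∃ r, f r = ρ s i j) :
    ∃ τ : G →* Matrix n n R, ∀ g, f.mapMatrix (τ g) = ρ g := by
  have hi : Function.Injective (f.mapMatrix : Matrix n n R →+* Matrix n n K) :=
    fun a b hab => Matrix.map_injective hf hab
  have h1 : ∀ g, ∃ a : Matrix n n R, f.mapMatrix a = ρ g := by
    intro g
    have hg : g ∈ Submonoid.closure S := hS ▸ Submonoid.mem_top g
    induction hg using Submonoid.closure_induction with
    | mem s hs =>
      choose r hr using h s hs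
      exact ⟨Matrix.of r, Matrix.ext hr⟩
    | one => exact ⟨1, by rw [map_one, map_one]⟩
    | mul x y _ _ hx hy =>
      obtain ⟨a, ha⟩ := hx
      obtain ⟨b, hb⟩ := hy
      exact ⟨a * b, by rw [map_mul, map_mul, ha, hb]⟩
  choose τ hτ using h1
  exact ⟨{ toFun := τ
           map_one' := hi (by rw [hτ, map_one, map_one])
           map_mul' := fun a b => hi (by rw [map_mul, hτ, hτ, hτ, map_mul]) }, hτ⟩

/-- The finite set of entries of the generators. -/
theorem finite_entries {K : Type} (ρ : G → Matrix n n K) {S : Set G} (hS : S.Finite) :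
    {x | ∃ s ∈ S, ∃ i j, ρ s i j = x}.Finite := by
  refine ((hS.prod (Set.finite_univ (α := n × n))).image
    fun p => ρ p.1 p.2.1 p.2.2).subset ?_
  rintro _ ⟨s, hs, i, j, rfl⟩
  exact ⟨(s, i, j), ⟨hs, trivial⟩, rfl⟩

theorem root_pow {K : Type} [Field K] {M : Matrix n n K} {m : ℕ} (hm : IsNilpotent (M ^ m - 1))
    {μ : K} (hμ : μ ∈ M.charpoly.roots) : μ ^ m = 1 := by
  obtain ⟨N, hN⟩ := hm
  have h1 : μ ∈ spectrum K M := Matrix.mem_spectrum_iff_isRoot_charpoly.2 (isRoot_of_mem_roots hμ)
  have h2 := spectrum.subset_polynomial_aeval M ((X ^ m - 1) ^ N) ⟨μ, h1, rfl⟩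
  simp only [map_pow, map_sub, aeval_X, map_one, hN, eval_pow, eval_sub, eval_X, eval_one] at h2
  rw [spectrum.mem_iff, sub_zero] at h2
  by_contra h3
  exact h2 ((IsUnit.mk0 _ (pow_ne_zero N (sub_ne_zero.2 h3))).map _)

theorem trace_eq_sum {K : Type} [Field K] [IsAlgClosed K] (M : Matrix n n K) :
    M.trace = M.charpoly.roots.sum := by
  rcases isEmpty_or_nonempty n with h | h
  · simp [Matrix.trace, Matrix.charpoly]
  · exact Matrix.trace_eq_sum_roots_charpoly M

theorem isIntegral_trace {K : Type} [Field K] [IsAlgClosed K] {M : Matrix n n K} {m : ℕ}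
    (h0 : 0 < m) (hm : IsNilpotent (M ^ m - 1)) : IsIntegral ℤ M.trace := by
  rw [trace_eq_sum]
  refine IsIntegral.multiset_sum fun μ hμ => IsIntegral.of_pow h0 ?_
  rw [root_pow hm hμ]
  exact isIntegral_one

theorem norm_trace_le {M : Matrix n n ℂ} {m : ℕ} (h0 : 0 < m) (hm : IsNilpotent (M ^ m - 1)) :
    ‖M.trace‖ ≤ Fintype.card n := by
  rw [trace_eq_sum]
  refine (norm_multiset_sum_le _).trans ?_
  have h1 : ∀ x ∈ M.charpoly.roots.map (fun x => ‖x‖), x ≤ 1 := by
    intro x hx
    obtain ⟨μ, hμ, rfl⟩ := Multiset.mem_map.1 hx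
    exact (Complex.norm_eq_one_of_pow_eq_one (root_pow hm hμ) h0.ne').le
  refine (Multiset.sum_le_card_nsmul _ _ h1).trans ?_
  rw [Multiset.card_map, nsmul_one, Nat.cast_le, ← M.charpoly_natDegree_eq_dim]
  exact card_roots' _

theorem finite_traces_of {k K : Type} [Field k] [Field K] [IsAlgClosed K] [Algebra k K]
    (hk : ∀ (L : Type) [Field L] [Algebra k L] [FiniteDimensional k L] (B : ℝ),
      {x : L | IsIntegral ℤ x ∧ ∀ ψ : L →+* ℂ, ‖ψ x‖ ≤ B}.Finite)
    [Group.FG G] (ρ : G →* Matrix n n K) (hq : ∀ g, ∃ m, 0 < m ∧ IsNilpotent (ρ g ^ m - 1)) :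
    (Set.range fun g => (ρ g).trace).Finite := by
  obtain ⟨S, hS, hS'⟩ := Monoid.fg_iff.1 (inferInstance : Monoid.FG G)
  let T := {x | ∃ s ∈ S, ∃ i j, ρ s i j = x}
  let R := Algebra.adjoin k T
  have : Algebra.FiniteType k R :=
    (Subalgebra.fg_iff_finiteType R).1 (Subalgebra.fg_def.2 ⟨T, finite_entries ρ hS', rfl⟩)
  let f : R →+* K := R.val
  have hf : Function.Injective f := Subtype.val_injective
  obtain ⟨τ, hτ⟩ := exists_lift f hf ρ hS
    fun s hs i j => ⟨⟨ρ s i j, Algebra.subset_adjoin ⟨s, hs, i, j, rfl⟩⟩, rfl⟩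
  obtain ⟨I, hI⟩ := Ideal.exists_maximal R
  let := Ideal.Quotient.field I
  have : Module.Finite k (R ⧸ I) := finite_of_finite_type_of_isJacobsonRing k (R ⧸ I)
  have htr : ∀ g, f (τ g).trace = (ρ g).trace := fun g => by
    rw [← hτ g, RingHom.mapMatrix_apply, AddMonoidHom.map_trace]
  have hint : ∀ g, IsIntegral ℤ (τ g).trace := by
    intro g
    obtain ⟨m, h0, hm⟩ := hq g
    refine (isIntegral_algHom_iff f.toIntAlgHom hf).1 ?_
    change IsIntegral ℤ (f (τ g).trace)
    rw [htr]
    exact isIntegral_trace h0 hm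
  have h1 : (Set.range fun g => (τ g).trace).Finite := by
    refine Set.Finite.of_finite_image (f := Ideal.Quotient.mk I)
      ((hk (R ⧸ I) (Fintype.card n)).subset ?_) ?_
    · rintro _ ⟨_, ⟨g, rfl⟩, rfl⟩
      refine ⟨(hint g).map (Ideal.Quotient.mk I).toIntAlgHom, fun ψ => ?_⟩
      obtain ⟨m, h0, N, hm⟩ := hq g
      have h2 : ψ (Ideal.Quotient.mk I (τ g).trace) =
          ((ψ.comp (Ideal.Quotient.mk I)).mapMatrix (τ g)).trace := by
        rw [RingHom.mapMatrix_apply, ← AddMonoidHom.map_trace]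
        rfl
      rw [h2]
      refine norm_trace_le h0 ⟨N, ?_⟩
      have h3 : (τ g ^ m - 1) ^ N = 0 := by
        refine Matrix.map_injective hf (?_ : f.mapMatrix _ = f.mapMatrix _)
        rw [map_pow, map_sub, map_pow, hτ, map_one, hm, map_zero]
      rw [← map_pow, ← map_one (ψ.comp (Ideal.Quotient.mk I)).mapMatrix, ← map_sub, ← map_pow, h3,
        map_zero]
    · rintro _ ⟨g, rfl⟩ _ ⟨g', rfl⟩ h
      by_contra hne
      have h4 : IsIntegral k ((τ g).trace - (τ g').trace) := ((hint g).sub (hint g')).tower_top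
      exact hI.ne_top (I.eq_top_of_isUnit_mem (Ideal.Quotient.eq.1 h)
        (h4.isUnit (sub_ne_zero.2 hne)))
  refine (h1.image f).subset ?_
  rintro _ ⟨g, rfl⟩
  exact ⟨_, ⟨g, rfl⟩, htr g⟩

theorem finite_traces {K : Type} [Field K] [IsAlgClosed K] [Group.FG G] (ρ : G →* Matrix n n K)
    (hq : ∀ g, ∃ m, 0 < m ∧ IsNilpotent (ρ g ^ m - 1)) :
    (Set.range fun g => (ρ g).trace).Finite := by
  rcases CharP.char_is_prime_or_zero K (ringChar K) with hp | hp
  · have : Fact (ringChar K).Prime := ⟨hp⟩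
    let := ZMod.algebra K (ringChar K)
    refine finite_traces_of (k := ZMod (ringChar K)) (fun L _ _ _ B => ?_) ρ hq
    have : Finite L := Module.finite_of_finite (ZMod (ringChar K))
    exact Set.toFinite _
  · have : CharP K 0 := hp ▸ ringChar.charP K
    have : CharZero K := CharP.charP_to_charZero K
    refine finite_traces_of (k := ℚ) (fun L _ i _ B => ?_) ρ hq
    have : CharZero L := algebraRat.charZero L
    obtain rfl : i = DivisionRing.toRatAlgebra := Subsingleton.elim _ _
    have : NumberField L := {}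
    exact NumberField.Embeddings.finite_of_norm_le L ℂ B

variable {K V : Type} [Field K] [AddCommGroup V] [Module K V] [FiniteDimensional K V]

/-- Theorem of Burnside on irreducible representations. -/
theorem span_eq_top [IsAlgClosed K] [Nontrivial V] (ρ : G →* Module.End K V)
    (h : ∀ W : Submodule K V, (∀ g, ∀ w ∈ W, ρ g w ∈ W) → W = ⊥ ∨ W = ⊤) :
    Submodule.span K (Set.range ρ) = ⊤ := by
  let A := Algebra.adjoin K (Set.range ρ)
  have : IsSimpleModule A V := by
    refine (isSimpleModule_iff _ _).2 ⟨fun W => ?_⟩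
    have h1 := h (W.restrictScalars K) fun g w hw =>
      W.smul_mem (⟨ρ g, Algebra.subset_adjoin ⟨g, rfl⟩⟩ : A) hw
    rwa [Submodule.restrictScalars_eq_bot_iff, Submodule.restrictScalars_eq_top_iff] at h1
  have : Module.Finite (Module.End A V) V := Module.Finite.of_restrictScalars_finite K _ _
  have h2 : Subalgebra.toSubmodule A = Submodule.span K (Set.range ρ) := by
    rw [Algebra.adjoin_eq_span, ← MonoidHom.coe_mrange, Submonoid.closure_eq]
  rw [← h2, eq_top_iff]
  intro f _
  let f' : Module.End (Module.End A V) V :=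
    { toFun := f
      map_add' := f.map_add
      map_smul' := fun c v => by
        obtain ⟨t, rfl⟩ := (IsSimpleModule.algebraMap_end_bijective_of_isAlgClosed K).2 c
        exact f.map_smul t v }
  obtain ⟨a, ha⟩ := Module.Finite.toModuleEnd_moduleEnd_surjective (R := A) (M := V) f'
  have h3 : f = a := LinearMap.ext fun v => (LinearMap.congr_fun ha v).symm
  rw [h3]
  exact a.2

/-- Finiteness of irreducible groups whose eigenvalues are roots of unity. -/
theorem finite_of_irr [IsAlgClosed K] [Group.FG G] (ρ : G →* Module.End K V)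
    (h : ∀ W : Submodule K V, (∀ g, ∀ w ∈ W, ρ g w ∈ W) → W = ⊥ ∨ W = ⊤)
    (hq : ∀ g, ∃ m, 0 < m ∧ IsNilpotent (ρ g ^ m - 1)) : (Set.range ρ).Finite := by
  rcases subsingleton_or_nontrivial V with hV | hV
  · exact Set.toFinite _
  let e := LinearMap.toMatrixAlgEquiv (Module.finBasis K V)
  let τ := e.toAlgHom.toRingHom.toMonoidHom.comp ρ
  have hτ : ∀ g, τ g = e (ρ g) := fun _ => rfl
  have h1 := finite_traces τ fun g => by
    obtain ⟨m, h0, hm⟩ := hq g
    refine ⟨m, h0, ?_⟩
    have h2 := hm.map e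
    rwa [map_sub, map_pow, map_one] at h2
  have h3 := span_eq_top ρ h
  obtain ⟨s, hs, hs'⟩ := (Submodule.fg_span_iff_fg_span_finset_subset (Set.range ρ)).1
    (h3 ▸ Module.Finite.fg_top)
  rw [h3] at hs'
  have := h1.to_subtype
  refine Set.Finite.of_finite_image (f := fun a (b : s) => (e (a * b)).trace)
    ((Set.Finite.pi' fun _ : s => h1).subset ?_) ?_
  · rintro _ ⟨_, ⟨g, rfl⟩, rfl⟩ b
    obtain ⟨g', hg'⟩ := hs b.2
    exact ⟨g * g', by simp only [hτ, map_mul, hg']⟩
  · intro a _ a' _ haa
    refine e.injective (Matrix.ext_iff_trace_mul_right.2 fun x => ?_)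
    obtain ⟨y, rfl⟩ := e.surjective x
    have hy : y ∈ Submodule.span K (s : Set (Module.End K V)) := hs' ▸ Submodule.mem_top
    induction hy using Submodule.span_induction with
    | mem b hb => simpa using congrFun haa ⟨b, hb⟩
    | zero => simp
    | add x y _ _ hx hy => simp only [map_add, mul_add, Matrix.trace_add, hx, hy]
    | smul c x _ hx => simp only [map_smul, mul_smul_comm, Matrix.trace_smul, hx]

end Vale.Agent.N215T
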