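import Vale.Agent.N215T.Ping
import Vale.Agent.N215T.Emb
import Vale.Agent.N215T.Tr

/-!
# The alternative of Tits

A finitely generated linear group over any field contains a free group of rank two or has a
solvable subgroup of finite index.
-/

namespace Vale.Agent.N215T

open Polynomial

variable {G G' M M' : Type} [Group G] [Group G'] [Monoid M] [Monoid M']

/-- The derived series of a subgroup. -/
def Der (S : Subgroup G) : ℕ → Subgroup G
  | 0 => S
  | m + 1 => ⁅Der S m, Der S m⁆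

theorem Der_mono {S S' : Subgroup G} (h : S ≤ S') : ∀ m, Der S m ≤ Der S' m
  | 0 => h
  | m + 1 => Subgroup.commutator_mono (Der_mono h m) (Der_mono h m)

theorem Der_anti (S : Subgroup G) : Antitone (Der S) :=
  antitone_nat_of_succ_le fun m => (Der S m).commutator_le_self

theorem Der_map (S : Subgroup G') (π : G' →* G) : ∀ m, Der (S.map π) m = (Der S m).map π
  | 0 => rfl
  | m + 1 => by rw [Der, Der, Subgroup.map_commutator, Der_map S π m]

theorem Der_top : ∀ m, Der (⊤ : Subgroup G) m = derivedSeries G m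
  | 0 => rfl
  | m + 1 => by rw [Der, Der_top m, derivedSeries_succ]

/-- The image of `ρ` is virtually solvable. -/
def VS (ρ : G →* M) : Prop := ∃ S : Subgroup G, S.FiniteIndex ∧ ∃ m, Der S m ≤ ρ.ker

/-- No free subgroup of rank two. -/
def NoF (G : Type) [Group G] : Prop := ¬∃ ι : FreeGroup (Fin 2) →* G, Function.Injective ι

theorem VS.transfer {ρ' : G' →* M'} (h : VS ρ') (π : G' →* G) [π.range.FiniteIndex] (ρ : G →* M)
    (hc : ∀ a b, ρ' a = 1 → ρ' b = 1 → ρ (π a) * ρ (π b) = ρ (π b) * ρ (π a)) : VS ρ := by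
  obtain ⟨S, hS, m, hm⟩ := h
  refine ⟨S.map π, ⟨?_⟩, m + 1, ?_⟩
  · rw [Subgroup.index_map]
    have : (S ⊔ π.ker).FiniteIndex := Subgroup.finiteIndex_of_le le_sup_left
    exact mul_ne_zero Subgroup.FiniteIndex.index_ne_zero Subgroup.FiniteIndex.index_ne_zero
  · rw [Der, Der_map, Subgroup.commutator_le]
    rintro _ ⟨a, ha, rfl⟩ _ ⟨b, hb, rfl⟩
    rw [← MonoidHom.ker_toHomUnits, MonoidHom.mem_ker, map_commutatorElement,
      commutatorElement_eq_one_iff_mul_comm]
    exact Units.ext (hc a b (hm ha) (hm hb))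

theorem VS.of_ker {ρ' : G →* M'} (h : VS ρ') (ρ : G →* M) (hc : ρ'.ker ≤ ρ.ker) : VS ρ := by
  obtain ⟨S, hS, m, hm⟩ := h
  exact ⟨S, hS, m, hm.trans hc⟩

theorem VS.prod {ρ : G →* M} {ρ' : G →* M'} (h : VS ρ) (h' : VS ρ') : VS (ρ.prod ρ') := by
  obtain ⟨S, hS, m, hm⟩ := h
  obtain ⟨S', hS', m', hm'⟩ := h'
  refine ⟨S ⊓ S', inferInstance, max m m', fun g hg => Prod.ext ?_ ?_⟩
  · exact hm (Der_anti S (le_max_left m m') (Der_mono inf_le_left _ hg))
  · exact hm' (Der_anti S' (le_max_right m m') (Der_mono inf_le_right _ hg))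

theorem VS.of_finite {ρ : G →* M} (h : (Set.range ρ).Finite) : VS ρ := by
  have : Finite ρ.toHomUnits.range := by
    refine (Set.Finite.of_finite_image (f := Units.val) (h.subset ?_)
      Units.val_injective.injOn).to_subtype
    rintro _ ⟨_, ⟨g, rfl⟩, rfl⟩
    exact ⟨g, rfl⟩
  exact ⟨ρ.toHomUnits.ker, inferInstance, 0, (MonoidHom.ker_toHomUnits ρ).le⟩

/-- The statement in dimension `n`. -/
def Tits (n : ℕ) : Prop :=
  ∀ (k V G : Type) [Field k] [AddCommGroup V] [Module k V] [FiniteDimensional k V] [Group G]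
    [Group.FG G], Module.finrank k V = n → NoF G → ∀ ρ : G →* Module.End k V, VS ρ

theorem VS.of_not_sirr {k V : Type} [Field k] [AddCommGroup V] [Module k V]
    [FiniteDimensional k V] [Group.FG G] (ih : ∀ m < Module.finrank k V, Tits m) (hG : NoF G)
    {ρ : G →* Module.End k V} (h : ¬SIrr ρ) : VS ρ := by
  unfold SIrr at h
  push Not at h
  obtain ⟨H, hH, W, hW, h0, h1⟩ := h
  have hH' : NoF H := fun ⟨ι, hι⟩ => hG ⟨H.subtype.comp ι, H.subtype_injective.comp hι⟩
  let τ : Representation k H V := ρ.comp H.subtype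
  have hτ : ∀ g, W ≤ W.comap (τ g) := fun g w hw => hW g g.2 w hw
  have h2 := ih _ (Submodule.finrank_lt h1) k W H rfl hH' (τ.subrepresentation W hτ)
  have h3 : Module.finrank k (V ⧸ W) < Module.finrank k V := by
    have h4 := W.finrank_quotient_add_finrank
    have h5 : Module.finrank k W ≠ 0 := fun h => h0 (Submodule.finrank_eq_zero.1 h)
    omega
  have h4 := ih _ h3 k (V ⧸ W) H rfl hH' (τ.quotient W hτ)
  have : H.subtype.range.FiniteIndex := by rwa [Subgroup.range_subtype]
  refine (h2.prod h4).transfer H.subtype ρ ?_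
  have key : ∀ a b : H, (MonoidHom.prod (τ.subrepresentation W hτ) (τ.quotient W hτ)) a = 1 →
      (MonoidHom.prod (τ.subrepresentation W hτ) (τ.quotient W hτ)) b = 1 → ∀ v,
      ρ a (ρ b v) = ρ a v + ρ b v - v := by
    intro a b ha hb v
    have ha' : τ.subrepresentation W hτ a = 1 := (Prod.ext_iff.1 ha).1
    have hb' : τ.quotient W hτ b = 1 := (Prod.ext_iff.1 hb).2
    have h5 : ρ b v - v ∈ W := by
      rw [← Submodule.Quotient.eq]
      exact LinearMap.congr_fun hb' (Submodule.Quotient.mk v)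
    have h6 : ρ a (ρ b v - v) = ρ b v - v :=
      congrArg Subtype.val (LinearMap.congr_fun ha' ⟨_, h5⟩)
    rw [map_sub, sub_eq_iff_eq_add] at h6
    rw [h6]
    abel
  intro a b ha hb
  ext v
  change ρ a (ρ b v) = ρ b (ρ a v)
  rw [key a b ha hb, key b a hb ha, add_comm]

theorem exists_root {n K : Type} [Fintype n] [DecidableEq n] [Field K] [IsAlgClosed K]
    (A : Matrix n n K) (h : ∀ μ ∈ A.charpoly.roots, ∃ m, 0 < m ∧ μ ^ m = 1) :
    ∃ m, 0 < m ∧ IsNilpotent (A ^ m - 1) := by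
  choose! f hf hf' using h
  have h0 : ∀ μ ∈ A.charpoly.roots, μ ^ (A.charpoly.roots.map f).prod = 1 := by
    intro μ hμ
    obtain ⟨c, hc⟩ := Multiset.dvd_prod (Multiset.mem_map_of_mem f hμ)
    rw [hc, pow_mul, hf' μ hμ, one_pow]
  refine ⟨(A.charpoly.roots.map f).prod, Multiset.prod_pos fun x hx => ?_,
    A.charpoly.roots.card, ?_⟩
  · obtain ⟨μ, hμ, rfl⟩ := Multiset.mem_map.1 hx
    exact hf μ hμ
  generalize (A.charpoly.roots.map f).prod = m at h0
  have h1 : A.charpoly ∣ (X ^ m - 1) ^ A.charpoly.roots.card := by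
    have h2 := Multiset.prod_dvd_prod_of_dvd (S := A.charpoly.roots) (fun μ => X - C μ)
      (fun _ => X ^ m - 1) fun μ hμ => dvd_iff_isRoot.2 (by simp [h0 μ hμ])
    rwa [← (IsAlgClosed.splits A.charpoly).eq_prod_roots_of_monic A.charpoly_monic,
      Multiset.map_const', Multiset.prod_replicate] at h2
  have h3 := aeval_eq_zero_of_dvd_aeval_eq_zero h1 A.aeval_self_charpoly
  simpa using h3

/-- The case of determinant one over an algebraically closed field. -/
theorem VS.of_det {n : ℕ} {K : Type} [Field K] [IsAlgClosed K] [Group.FG G]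
    (ih : ∀ m < n, Tits m) (hG : NoF G) (ρ : G →* Matrix (Fin n) (Fin n) K)
    (hd : ∀ g, (ρ g).det = 1) : VS ρ := by
  by_cases hq : ∀ g, ∃ m, 0 < m ∧ IsNilpotent (ρ g ^ m - 1)
  · let e : Matrix (Fin n) (Fin n) K ≃ₐ[K] Module.End K (Fin n → K) := Matrix.toLinAlgEquiv'
    let τ : G →* Module.End K (Fin n → K) := e.toAlgHom.toRingHom.toMonoidHom.comp ρ
    refine VS.of_ker (ρ' := τ) ?_ ρ fun g hg => e.injective ((MonoidHom.mem_ker.1 hg).trans
      (map_one e).symm)
    by_cases hs : SIrr τ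
    · refine VS.of_finite (finite_of_irr τ (fun W hW => hs ⊤ inferInstance W fun g _ => hW g)
        fun g => ?_)
      obtain ⟨m, h0, hm⟩ := hq g
      refine ⟨m, h0, ?_⟩
      have h2 := hm.map e
      rwa [map_sub, map_pow, map_one] at h2
    · exact VS.of_not_sirr (by simpa using ih) hG hs
  obtain ⟨g, hg⟩ := not_forall.1 hq
  have h1 := mt (exists_root (ρ g)) hg
  push Not at h1
  obtain ⟨μ, hμ, hμ'⟩ := h1
  have h0 : μ ≠ 0 := by
    rintro rfl
    have h2 := (ρ g).det_eq_prod_roots_charpoly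
    rw [hd, Multiset.prod_eq_zero hμ] at h2
    exact one_ne_zero h2
  obtain ⟨S, hS, hS'⟩ := Monoid.fg_iff.1 (inferInstance : Monoid.FG G)
  let T := insert μ {x | ∃ s ∈ S, ∃ i j, ρ s i j = x}
  have hT : T.Finite := (finite_entries ρ hS').insert μ
  let F := Subfield.closure T
  have hF : Subfield.closure (F.subtype ⁻¹' T) = ⊤ := by
    rw [eq_top_iff]
    intro x _
    have h2 : (x : K) ∈ (Subfield.closure (F.subtype ⁻¹' T)).map F.subtype := by
      rw [RingHom.map_field_closure, Set.image_preimage_eq_of_subset]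
      · exact x.2
      · exact fun y hy => ⟨⟨y, Subfield.subset_closure hy⟩, rfl⟩
    obtain ⟨y, hy, hy'⟩ := h2
    exact (Subtype.ext hy' : y = x) ▸ hy
  let ν : F := ⟨μ, Subfield.subset_closure (Set.mem_insert _ _)⟩
  obtain ⟨k, _, _, σ, hσ⟩ := locEmb (hT.preimage F.subtype_injective.injOn) hF (μ := ν)
    (fun h => h0 (congrArg Subtype.val h)) fun m hm h => hμ' m hm (congrArg Subtype.val h)
  obtain ⟨τ, hτ⟩ := exists_lift F.subtype F.subtype_injective ρ hS fun s hs i j =>
    ⟨⟨ρ s i j, Subfield.subset_closure (Set.mem_insert_of_mem _ ⟨s, hs, i, j, rfl⟩)⟩, rfl⟩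
  let e : Matrix (Fin n) (Fin n) k ≃ₐ[k] Module.End k (Fin n → k) := Matrix.toLinAlgEquiv'
  let θ : G →* Module.End k (Fin n → k) :=
    (e.toAlgHom.toRingHom.comp σ.mapMatrix).toMonoidHom.comp τ
  have hθ : ∀ g, θ g = Matrix.toLin' ((τ g).map σ) := fun _ => rfl
  refine VS.of_ker (ρ' := θ) (VS.of_not_sirr (by simpa using ih) hG fun hs => hG ?_) ρ ?_
  · refine free_of_eigen θ hs (g := g) ?_ ?_ hσ
    · rw [hθ, LinearMap.det_toLin', ← RingHom.mapMatrix_apply, ← RingHom.map_det]
      have h2 : (τ g).det = 1 := F.subtype_injective (by rw [RingHom.map_det, hτ, hd, map_one])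
      rw [h2, map_one]
    · rw [Module.End.hasEigenvalue_iff_isRoot_charpoly, hθ, Matrix.charpoly_toLin',
        Matrix.charpoly_map]
      refine IsRoot.map ?_
      have h2 := isRoot_of_mem_roots hμ
      rw [← hτ, RingHom.mapMatrix_apply, Matrix.charpoly_map] at h2
      exact IsRoot.of_map (f := F.subtype) (x := ν) h2 F.subtype_injective
  · intro a ha
    have h2 : σ.mapMatrix (τ a) = σ.mapMatrix 1 :=
      e.injective ((MonoidHom.mem_ker.1 ha).trans (by rw [map_one, map_one]))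
    have h3 : τ a = 1 := Matrix.map_injective σ.injective h2
    rw [MonoidHom.mem_ker, ← hτ, h3, map_one]

theorem tits (n : ℕ) : Tits n := by
  induction n using Nat.strong_induction_on with
  | _ n ih =>
  intro k V G _ _ _ _ _ _ hn hG ρ
  rcases Nat.eq_zero_or_pos n with rfl | h0
  · have : Subsingleton V := Module.finrank_zero_iff.1 hn
    exact VS.of_finite (Set.toFinite _)
  let K := AlgebraicClosure k
  let e := LinearMap.toMatrixAlgEquiv (Module.finBasisOfFinrankEq k V hn)
  let j : Module.End k V →+* Matrix (Fin n) (Fin n) K :=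
    (algebraMap k K).mapMatrix.comp e.toAlgHom.toRingHom
  have hj : Function.Injective j :=
    (Matrix.map_injective (algebraMap k K).injective).comp e.injective
  let τ : G × Kˣ →* Matrix (Fin n) (Fin n) K :=
    { toFun := fun p => (p.2 : K) • j (ρ p.1)
      map_one' := by simp
      map_mul' := fun p q => by simp [smul_smul, mul_comm] }
  have hτ : ∀ p, τ p = (p.2 : K) • j (ρ p.1) := fun _ => rfl
  have h1 : ∀ g, ∃ c : Kˣ, (τ (g, c)).det = 1 := by
    intro g
    have h2 : IsUnit (j (ρ g)).det :=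
      (Matrix.isUnit_iff_isUnit_det _).1 (((Group.isUnit g).map ρ).map j)
    obtain ⟨c, hc⟩ := IsAlgClosed.exists_pow_nat_eq (j (ρ g)).det⁻¹ h0
    have h3 : c ≠ 0 := by
      rintro rfl
      rw [zero_pow h0.ne'] at hc
      exact inv_ne_zero h2.ne_zero hc.symm
    refine ⟨Units.mk0 c h3, ?_⟩
    rw [hτ, Matrix.det_smul, Fintype.card_fin, Units.val_mk0, hc, inv_mul_cancel₀ h2.ne_zero]
  choose c hc using h1
  obtain ⟨S, hS, hS'⟩ := Group.fg_iff.1 (inferInstance : Group.FG G)
  have := (hS'.image fun g => (g, c g)).to_subtype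
  let H := Subgroup.closure ((fun g => (g, c g)) '' S)
  have hH : H ≤ (Matrix.detMonoidHom.comp τ).ker := by
    rw [Subgroup.closure_le]
    rintro _ ⟨g, _, rfl⟩
    exact hc g
  let π : H →* G := (MonoidHom.fst G Kˣ).comp H.subtype
  have hπ : π.range = ⊤ := by
    rw [eq_top_iff, ← hS, Subgroup.closure_le]
    exact fun g hg => ⟨⟨(g, c g), Subgroup.subset_closure ⟨g, hg, rfl⟩⟩, rfl⟩
  have : π.range.FiniteIndex := hπ ▸ inferInstance
  have hH' : NoF H := by
    rintro ⟨ι, hι⟩
    refine hG ⟨π.comp ι, (injective_iff_map_eq_one _).2 fun x hx => ?_⟩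
    have h2 : (ι x).1.1 = 1 := hx
    have h3 : (τ (ι x).1).det = 1 := hH (ι x).2
    rw [hτ, h2, map_one, map_one, Matrix.det_smul, Fintype.card_fin, Matrix.det_one, mul_one] at h3
    refine (pow_eq_one_iff_left h0.ne').1 (hι ?_)
    rw [map_pow, map_one]
    refine Subtype.ext (Prod.ext ?_ (Units.ext h3))
    change (ι x).1.1 ^ n = 1
    rw [h2, one_pow]
  refine (VS.of_det ih hH' (τ.comp H.subtype) fun g => hH g.2).transfer π ρ fun a b ha hb => hj ?_
  have h2 : ∀ a : H, (τ.comp H.subtype) a = 1 → j (ρ (π a)) = ((a.1.2 : K)⁻¹) • 1 := by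
    intro a ha
    rw [← ha]
    exact (inv_smul_smul₀ a.1.2.ne_zero _).symm
  rw [map_mul, map_mul, h2 a ha, h2 b hb, smul_mul_smul, smul_mul_smul, mul_comm]

end Vale.Agent.N215T
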