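import Mathlib

/-!
# Tits alternative, part 1: generic elements of a strongly irreducible group
-/

open Set TopologicalSpace
open scoped Pointwise

namespace Vale.Agent.N215T

variable {G : Type} [Group G] {k : Type} [Field k]

/-- If an orbit is covered by finitely many subspaces, the orbit of a subgroup of finite index lies
in one of them. -/
theorem exists_finiteIndex_of_cover {E : Type} [AddCommGroup E] [Module k E] [FiniteDimensional k E]
    (σ : G →* Module.End k E) (x : E) {ι : Type} [Finite ι] (B : ι → Submodule k E)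
    (hB : ∀ g, ∃ j, σ g x ∈ B j) :
    ∃ H : Subgroup G, H.FiniteIndex ∧ ∃ j, ∀ h ∈ H, σ h x ∈ B j := by
  classical
  let A : Submodule k E → Set G := fun U => {g | σ g x ∈ U}
  let S : Set (Set G) := {s | ∃ U, s = (A U)ᶜ}
  let T : TopologicalSpace G := generateFrom S
  have hcl : ∀ U, IsClosed (A U) := fun U =>
    ⟨isOpen_generateFrom_of_mem ⟨U, rfl⟩⟩
  have hN : NoetherianSpace G := by
    rw [noetherianSpace_iff_isCompact]
    intro s
    refine isCompact_generateFrom (S := S) rfl fun P hP hs => ?_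
    choose U hU using fun p : P => hP p.2
    obtain ⟨W, ⟨F, rfl⟩, hF⟩ := (wellFounded_lt (α := Submodule k E)).has_min
      {W | ∃ F : Finset P, W = F.inf U} ⟨⊤, ∅, by simp⟩
    refine ⟨Subtype.val '' (F : Set P), by simp, F.finite_toSet.image _, fun g hg => ?_⟩
    obtain ⟨p, hp, hgp⟩ := hs hg
    by_contra hne
    have h1 : σ g x ∈ F.inf U := by
      rw [Submodule.mem_finsetInf]
      intro q hq
      by_contra h2
      refine hne ⟨q.1, ⟨q, hq, rfl⟩, ?_⟩
      rw [hU q]
      exact h2
    have h2 := hF ((insert (⟨p, hp⟩ : P) F).inf U) ⟨_, rfl⟩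
    rw [Finset.inf_insert] at h2
    have h3 : F.inf U ≤ U ⟨p, hp⟩ := by
      by_contra h4
      exact h2 (lt_of_le_of_ne inf_le_right fun h5 => h4 (h5 ▸ inf_le_left))
    have h4 : g ∈ ((⟨p, hp⟩ : P) : Set G) := hgp
    rw [hU ⟨p, hp⟩] at h4
    exact h4 (h3 h1)
  have hmul : ∀ g : G, Continuous fun h : G => g * h := by
    intro g
    refine continuous_generateFrom_iff.2 ?_
    rintro _ ⟨U, rfl⟩
    refine isOpen_generateFrom_of_mem ⟨U.comap (σ g), ?_⟩
    ext h
    simp [A]
  let Z : Set G := irreducibleComponent 1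
  have hZ : Z ∈ irreducibleComponents G := irreducibleComponent_mem_irreducibleComponents 1
  have him : ∀ (g : G) (Y : Set G), IsIrreducible Y → IsIrreducible (g • Y) := fun g Y hY =>
    hY.image _ (hmul g).continuousOn
  have horb : MulAction.orbit G Z ⊆ irreducibleComponents G := by
    rintro _ ⟨g, rfl⟩
    refine ⟨him g Z hZ.1, fun Y hY hle => ?_⟩
    have h1 : Z ≤ g⁻¹ • Y := by
      have := smul_set_mono (a := g⁻¹) hle
      rwa [inv_smul_smul] at this
    have h2 := hZ.2 (him g⁻¹ Y hY) h1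
    have := smul_set_mono (a := g) h2
    rwa [smul_inv_smul] at this
  refine ⟨MulAction.stabilizer G Z, ⟨?_⟩, ?_⟩
  · rw [MulAction.index_stabilizer]
    exact ((Set.ncard_pos (NoetherianSpace.finite_irreducibleComponents.subset horb)).2
      (MulAction.nonempty_orbit Z)).ne'
  · have := Fintype.ofFinite ι
    obtain ⟨t, ht, hZt⟩ := isIrreducible_iff_sUnion_isClosed.1 hZ.1
      (Finset.univ.image fun j => A (B j)) (by
        intro t ht
        obtain ⟨j, -, rfl⟩ := Finset.mem_image.1 ht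
        exact hcl _) (by
        intro g _
        obtain ⟨j, hj⟩ := hB g
        exact ⟨A (B j), by simp, hj⟩)
    obtain ⟨j, -, rfl⟩ := Finset.mem_image.1 ht
    refine ⟨j, fun h hh => hZt ?_⟩
    have h1 : h • Z = Z := hh
    rw [← h1]
    exact ⟨1, mem_irreducibleComponent, mul_one h⟩

variable {V : Type} [AddCommGroup V] [Module k V]

/-- Every subgroup of finite index acts irreducibly. -/
def SIrr (ρ : G →* Module.End k V) : Prop :=
  ∀ H : Subgroup G, H.FiniteIndex → ∀ W : Submodule k V, (∀ h ∈ H, ∀ w ∈ W, ρ h w ∈ W) →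
    W = ⊥ ∨ W = ⊤

theorem SIrr.exists_ne {ρ : G →* Module.End k V} (hρ : SIrr ρ) {H : Subgroup G}
    (hH : H.FiniteIndex) {p q : Module.End k V} (hp : p ≠ 0) (hq : q ≠ 0) :
    ∃ h ∈ H, p * ρ h * q ≠ 0 := by
  by_contra hc
  push Not at hc
  let W : Submodule k V := ⨅ h : H, (LinearMap.ker p).comap (ρ h)
  have hW : ∀ w, w ∈ W ↔ ∀ h ∈ H, p (ρ h w) = 0 := fun w => by simp [W]
  rcases hρ H hH W (fun h hh w hw => by
    rw [hW] at hw ⊢
    intro h' hh'
    have := hw (h' * h) (H.mul_mem hh' hh)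
    simpa using this) with h | h
  · apply hq
    ext v
    have : q v ∈ W := (hW _).2 fun h hh => by
      simpa using LinearMap.congr_fun (hc h hh) v
    rw [h] at this
    simpa using this
  · apply hp
    ext v
    have : v ∈ W := by rw [h]; trivial
    simpa using (hW v).1 this 1 H.one_mem

/-- **Generic elements.** -/
theorem SIrr.generic [FiniteDimensional k V] {ρ : G →* Module.End k V} (hρ : SIrr ρ) {ι : Type}
    [Finite ι] (p q : ι → Module.End k V) (hp : ∀ i, p i ≠ 0) (hq : ∀ i, q i ≠ 0) :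
    ∃ g, ∀ i, p i * ρ g * q i ≠ 0 ∧ p i * ρ g⁻¹ * q i ≠ 0 := by
  by_contra hc
  push Not at hc
  let σ : G →* Module.End k (Module.End k V × Module.End k V) :=
    { toFun := fun g => LinearMap.prodMap (LinearMap.mulLeft k (ρ g)) (LinearMap.mulRight k (ρ g⁻¹))
      map_one' := by ext <;> simp
      map_mul' := fun g h => by
        refine LinearMap.ext fun z => ?_
        simp [mul_assoc] }
  let B : ι × Bool → Submodule k (Module.End k V × Module.End k V) := fun j =>
    LinearMap.ker (LinearMap.mulRight k (q j.1) ∘ₗ LinearMap.mulLeft k (p j.1) ∘ₗ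
      (if j.2 then LinearMap.fst k _ _ else LinearMap.snd k _ _))
  have hB1 : ∀ g i, σ g (1, 1) ∈ B (i, true) ↔ p i * ρ g * q i = 0 := fun g i => by simp [σ, B]
  have hB2 : ∀ g i, σ g (1, 1) ∈ B (i, false) ↔ p i * ρ g⁻¹ * q i = 0 := fun g i => by simp [σ, B]
  obtain ⟨H, hH, ⟨i, b⟩, hj⟩ := exists_finiteIndex_of_cover σ (1, 1) B fun g => by
    obtain ⟨i, hi⟩ := hc g
    by_cases h : p i * ρ g * q i = 0
    · exact ⟨(i, true), (hB1 g i).2 h⟩
    · exact ⟨(i, false), (hB2 g i).2 (hi h)⟩
  obtain ⟨h, hh, hne⟩ := hρ.exists_ne hH (hp i) (hq i)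
  cases b
  · have := (hB2 h⁻¹ i).1 (hj _ (H.inv_mem hh))
    rw [inv_inv] at this
    exact hne this
  · exact hne ((hB1 h i).1 (hj _ hh))

end Vale.Agent.N215T
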